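import Vale.Agent.Lib.P348.helper23.Basics

/-!
P348 (helper47, second copy of pool job P348-K5): the diagonal entry of the spin-one ring
Hamiltonian at the alternating configuration (top state at even sites, bottom state at odd
sites) is `-L` for even `L`.
-/

namespace Vale.Agent.Lib.P348.H47

open Matrix

open Vale.Agent.Lib.P361 Vale.Agent.Lib.P348

/-- The diagonal entry of a product of two one-site matrices at different sites. -/
theorem siteOp_pair_diag {Λ : Type*} [Fintype Λ] [DecidableEq Λ] {d : ℕ} {x y : Λ}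
    (hxy : x ≠ y) (a b : Matrix (Fin d) (Fin d) ℂ) (σ : Λ → Fin d) :
    (siteOp x a * siteOp y b) σ σ = a (σ x) (σ x) * b (σ y) (σ y) := by
  rw [Matrix.mul_apply, Finset.sum_eq_single σ]
  · show (if ∀ z, z ≠ x → σ z = σ z then a (σ x) (σ x) else 0)
        * (if ∀ z, z ≠ y → σ z = σ z then b (σ y) (σ y) else 0) = _
    rw [if_pos (fun _ _ => rfl), if_pos (fun _ _ => rfl)]
  · intro τ _ hτ
    show (if ∀ z, z ≠ x → σ z = τ z then a (σ x) (τ x) else 0)
        * (if ∀ z, z ≠ y → τ z = σ z then b (τ y) (σ y) else 0) = 0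
    by_cases h1 : ∀ z, z ≠ x → σ z = τ z
    · by_cases h2 : ∀ z, z ≠ y → τ z = σ z
      · exfalso
        apply hτ
        funext z
        by_cases hz : z = x
        · rw [hz]
          exact h2 x hxy
        · exact (h1 z hz).symm
      · rw [if_neg h2, mul_zero]
    · rw [if_neg h1, zero_mul]
  · intro h
    exact absurd (Finset.mem_univ σ) h

theorem spinPlus_diag (d : ℕ) (i : Fin d) : spinPlus d i i = 0 :=
  if_neg (Nat.ne_of_lt (Nat.lt_succ_self _))

theorem spinMinus_diag (d : ℕ) (i : Fin d) : spinMinus d i i = 0 := by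
  rw [spinMinus_apply]
  exact if_neg (Nat.ne_of_lt (Nat.lt_succ_self _))

theorem spinX_diag (d : ℕ) (i : Fin d) : spinX d i i = 0 := by
  show ((1 / 2 : ℂ) • (spinPlus d + spinMinus d)) i i = 0
  rw [Matrix.smul_apply, Matrix.add_apply, spinPlus_diag, spinMinus_diag, add_zero, smul_zero]

theorem spinY_diag (d : ℕ) (i : Fin d) : spinY d i i = 0 := by
  show ((1 / (2 * Complex.I) : ℂ) • (spinPlus d - spinMinus d)) i i = 0
  rw [Matrix.smul_apply, Matrix.sub_apply, spinPlus_diag, spinMinus_diag, sub_zero, smul_zero]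

theorem spinZ_diag3 (i : Fin 3) :
    spinZ 3 i i = (((((3 : ℕ) : ℝ) - 1) / 2 - ((i : ℕ) : ℝ) : ℝ) : ℂ) :=
  Matrix.diagonal_apply_eq _ i

theorem spinZ_zero : spinZ 3 (0 : Fin 3) 0 = 1 := by
  rw [spinZ_diag3]
  norm_num

theorem spinZ_two : spinZ 3 (2 : Fin 3) 2 = -1 := by
  rw [spinZ_diag3]
  norm_num

theorem spinZ_pair (v w : ℕ) (h : v % 2 ≠ w % 2) :
    spinZ 3 (if v % 2 = 0 then (0 : Fin 3) else 2) (if v % 2 = 0 then (0 : Fin 3) else 2)
      * spinZ 3 (if w % 2 = 0 then (0 : Fin 3) else 2) (if w % 2 = 0 then (0 : Fin 3) else 2)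
      = -1 := by
  by_cases hv : v % 2 = 0
  · have hw : ¬ w % 2 = 0 := fun hw => h (hv.trans hw.symm)
    rw [if_pos hv, if_neg hw, spinZ_zero, spinZ_two, one_mul]
  · have hw : w % 2 = 0 := by omega
    rw [if_neg hv, if_pos hw, spinZ_zero, spinZ_two, mul_one]

theorem neel_diag (L : ℕ) (hL : Even L) (hL2 : 2 ≤ L) :
    ∃ σ : Fin L → Fin 3, ringH L σ σ = -(L : ℂ) := by
  obtain ⟨m, rfl⟩ : ∃ m, L = m + 1 := ⟨L - 1, by omega⟩
  have hm : (m + 1) % 2 = 0 := Nat.even_iff.mp hL
  refine ⟨fun j => if j.val % 2 = 0 then 0 else 2, ?_⟩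
  rw [defs_aux_ringH, Matrix.sum_apply]
  have hterm : ∀ j : Fin (m + 1), spinDot 3 j (finRotate (m + 1) j)
      (fun j => if j.val % 2 = 0 then (0 : Fin 3) else 2)
      (fun j => if j.val % 2 = 0 then (0 : Fin 3) else 2) = -1 := by
    intro j
    have hval : ((finRotate (m + 1) j : Fin (m + 1)) : ℕ)
        = if j = Fin.last m then 0 else (j : ℕ) + 1 := coe_finRotate j
    have hpar : j.val % 2 ≠ (finRotate (m + 1) j).val % 2 := by
      rw [hval]
      by_cases hj : j = Fin.last m
      · rw [if_pos hj, hj, Fin.val_last]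
        omega
      · rw [if_neg hj]
        omega
    have hne : j ≠ finRotate (m + 1) j := by
      intro hcon
      apply hpar
      rw [← hcon]
    show (siteOp j (spinX 3) * siteOp (finRotate (m + 1) j) (spinX 3)
        + siteOp j (spinY 3) * siteOp (finRotate (m + 1) j) (spinY 3)
        + siteOp j (spinZ 3) * siteOp (finRotate (m + 1) j) (spinZ 3)) _ _ = -1
    rw [Matrix.add_apply, Matrix.add_apply, siteOp_pair_diag hne, siteOp_pair_diag hne,
      siteOp_pair_diag hne, spinX_diag, spinY_diag, zero_mul, zero_mul, zero_add, zero_add]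
    exact spinZ_pair j.val (finRotate (m + 1) j).val hpar
  rw [Finset.sum_congr rfl (fun j _ => hterm j), Finset.sum_const, Finset.card_univ,
    Fintype.card_fin, nsmul_eq_mul, mul_neg, mul_one]

end Vale.Agent.Lib.P348.H47
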